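import Vale.Agent.P354CB.Defs2

/-!
An isometry with bounded derivative extends smoothly along a slice across one point.
-/

open scoped ContDiff
open Set Filter Topology Metric ContinuousLinearMap

namespace Vale.Agent.P354CB46

open Vale.Agent.P354n Vale.Agent.P354CB
open Vale.Agent.P354I (X)

/-- The right side of the first order system for the map and its derivative. -/
noncomputable def rhs (G G' : R4 →L[ℝ] R4 →L[ℝ] R4) (P : R4 →L[ℝ] R4) :
    R4 →L[ℝ] R4 × (R4 →L[ℝ] R4) :=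
  (inl ℝ R4 (R4 →L[ℝ] R4)).comp P + (inr ℝ R4 (R4 →L[ℝ] R4)).comp
    ((compL ℝ R4 R4 R4 P).comp G - ((compL ℝ R4 R4 R4).flip P).comp (G'.comp P))

theorem rhs_cd {Z : Type} [NormedAddCommGroup Z] [NormedSpace ℝ Z] {z : Z}
    {G G' : Z → R4 →L[ℝ] R4 →L[ℝ] R4} {P : Z → R4 →L[ℝ] R4} (h : ContDiffAt ℝ ∞ G z)
    (h' : ContDiffAt ℝ ∞ G' z) (k : ContDiffAt ℝ ∞ P z) :
    ContDiffAt ℝ ∞ (fun x => rhs (G x) (G' x) (P x)) z :=
  (contDiffAt_const.clm_comp k).add (contDiffAt_const.clm_comp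
    (((contDiffAt_const.clm_apply k).clm_comp h).sub
      ((contDiffAt_const.clm_apply k).clm_comp (h'.clm_comp k))))

theorem ks1 (K3 : LK3) (hR : KR) : KS1 := by
  intro g D Xf g' D' Xf' h h' J y F K C hJ hy hK hD H
  obtain ⟨Γ, c, l⟩ := K3.gam h
  obtain ⟨Γ', c', l'⟩ := K3.gam h'
  obtain ⟨J', a1, a2, a3⟩ := hR (R4 × (R4 →L[ℝ] R4)) y (fun x => (F (J x), fderiv ℝ F (J x)))
    (fun q => (rhs (Γ (J q.1)) (Γ' q.2.1) q.2.2).comp (fderiv ℝ J q.1)) (K ×ˢ closedBall 0 C)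
    (hK.prod (isCompact_closedBall 0 C))
    (fun k hk => (rhs_cd
      ((c.contDiffAt (h.isOpen.mem_nhds hy)).comp (y, k) (hJ.contDiffAt.comp _ contDiffAt_fst))
      ((c'.contDiffAt (h'.isOpen.mem_nhds (hD hk.1))).comp (y, k) contDiffAt_snd.fst)
      contDiffAt_snd.snd).clm_comp
      ((hJ.fderiv_right (m := ∞) (by simp)).contDiffAt.comp _ contDiffAt_fst)) (by
    filter_upwards [H] with x ⟨k1, k2, k3⟩
    refine ⟨⟨k2, mem_closedBall_zero_iff.2 k3⟩, ?_⟩
    obtain ⟨m, m', s, -⟩ := k1.self_of_nhds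
    have d := ((s.differentiableAt (by simp)).hasFDerivAt.prodMk
      ((s.fderiv_right (m := ∞) (by simp)).differentiableAt (by simp)).hasFDerivAt).comp x
      (hJ.differentiable (by simp) x).hasFDerivAt
    refine d.congr_fderiv (congrArg (fun A => comp A _) (ContinuousLinearMap.ext fun a => ?_))
    refine Prod.ext (by simp [rhs]) (ContinuousLinearMap.ext fun b => ?_)
    simpa [rhs] using K3.je h h' k1 ((l _ m fun z a b => Γ z a b).2 fun _ _ => rfl)
      ((l' _ m' fun z a b => Γ' z a b).2 fun _ _ => rfl) a b)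
  exact ⟨fun x => (J' x).1, a1.fst, a2.1, fun x hx => congrArg Prod.fst (a3 x hx)⟩

end Vale.Agent.P354CB46
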