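import Vale.Agent.P354CB.Ez

/-!
A convex time function whose sublevel set touches the complement of an open set.
-/

open scoped ContDiff
open Set Filter Topology Metric

namespace Vale.Agent.P354CB46

open Vale.Agent.P354n Vale.Agent.P354CB
open Vale.Agent.P354XJ (Tm)

/-- The Euclidean product. -/
def ip (a b : R4) : ℝ := a.1 * b.1 + a.2.1 * b.2.1 + a.2.2.1 * b.2.2.1 + a.2.2.2 * b.2.2.2

theorem crd_le (a : R4) : |a.1| ≤ ‖a‖ ∧ |a.2.1| ≤ ‖a‖ ∧ |a.2.2.1| ≤ ‖a‖ ∧ |a.2.2.2| ≤ ‖a‖ :=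
  ⟨norm_fst_le a, (norm_fst_le a.2).trans (norm_snd_le a),
    (norm_fst_le a.2.2).trans ((norm_snd_le a.2).trans (norm_snd_le a)),
    (norm_snd_le a.2.2).trans ((norm_snd_le a.2).trans (norm_snd_le a))⟩

theorem ip_le (a b : R4) : ip a b ≤ 4 * (‖a‖ * ‖b‖) := by
  obtain ⟨a1, a2, a3, a4⟩ := crd_le a
  obtain ⟨b1, b2, b3, b4⟩ := crd_le b
  have k : ∀ {x y : ℝ}, |x| ≤ ‖a‖ → |y| ≤ ‖b‖ → x * y ≤ ‖a‖ * ‖b‖ := fun h k =>
    (le_abs_self _).trans ((abs_mul _ _).trans_le (mul_le_mul h k (abs_nonneg _) (norm_nonneg _)))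
  have := k a1 b1
  have := k a2 b2
  have := k a3 b3
  have := k a4 b4
  unfold ip
  linarith

theorem sq_le (a : R4) : ‖a‖ ^ 2 ≤ ip a a := by
  have h0 : 0 ≤ ip a a := by
    unfold ip
    nlinarith [mul_self_nonneg a.1, mul_self_nonneg a.2.1, mul_self_nonneg a.2.2.1,
      mul_self_nonneg a.2.2.2]
  have k : ∀ x : ℝ, x * x ≤ ip a a → ‖x‖ ≤ √(ip a a) := fun x h =>
    Real.abs_le_sqrt (by rwa [sq])
  have : ‖a‖ ≤ √(ip a a) := by
    refine norm_prod_le_iff.2 ⟨k _ ?_, norm_prod_le_iff.2 ⟨k _ ?_,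
      norm_prod_le_iff.2 ⟨k _ ?_, k _ ?_⟩⟩⟩ <;> unfold ip <;>
    nlinarith [mul_self_nonneg a.1, mul_self_nonneg a.2.1, mul_self_nonneg a.2.2.1,
      mul_self_nonneg a.2.2.2]
  exact (pow_le_pow_left₀ (norm_nonneg _) this 2).trans_eq (Real.sq_sqrt h0)

theorem ip_exp (u a : R4) (s : ℝ) :
    ip (u + s • a) (u + s • a) = ip u u + s * (2 * ip u a) + s ^ 2 * ip a a := by
  simp only [ip, Prod.fst_add, Prod.snd_add, Prod.smul_fst, Prod.smul_snd, smul_eq_mul]
  ring

theorem ip_lin (u a b : R4) (s t : ℝ) : ip u (s • a + t • b) = s * ip u a + t * ip u b := by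
  simp only [ip, Prod.fst_add, Prod.snd_add, Prod.smul_fst, Prod.smul_snd, smul_eq_mul]
  ring

theorem small {A b s : ℝ} (hb : 0 < b) (hs : 0 < s) : ∃ x, 0 < x ∧ x ≤ s ∧ A * x < b := by
  have h1 : ∀ᶠ x in 𝓝[>] (0 : ℝ), A * x < b := nhdsWithin_le_nhds
    ((by fun_prop : Continuous fun x : ℝ => A * x).continuousAt.eventually_lt continuousAt_const
      (by simpa using hb))
  obtain ⟨x, h, k⟩ := (h1.and (Ioc_mem_nhdsGT hs)).exists
  exact ⟨x, k.1, k.2, h⟩

/-- The first variation at a minimum. -/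
theorem ip_nonneg {u a : R4} (h : ∀ᶠ s in 𝓝[>] (0 : ℝ), ip u u ≤ ip (u + s • a) (u + s • a)) :
    0 ≤ ip u a := by
  have h1 : Tendsto (fun s : ℝ => 2 * ip u a + s * ip a a) (𝓝[>] 0) (𝓝 (2 * ip u a + 0 * ip a a)) :=
    ((by fun_prop : Continuous fun s : ℝ => 2 * ip u a + s * ip a a).tendsto 0).mono_left
      nhdsWithin_le_nhds
  have : 0 ≤ 2 * ip u a + 0 * ip a a := by
    refine ge_of_tendsto h1 ?_
    filter_upwards [h, self_mem_nhdsWithin] with s k (hs : 0 < s)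
    rw [ip_exp] at k
    refine nonneg_of_mul_nonneg_right (a := s) ?_ hs
    nlinarith
  linarith

variable (θ : R4 →L[ℝ] ℝ) (η : ℝ) (w : R4)

/-- The time function. -/
def tf (x : R4) : ℝ := η * θ x + ip (x - w) (x - w)

theorem tf_smooth : ContDiff ℝ ∞ (tf θ η w) := by
  unfold tf ip
  fun_prop

theorem tf_convex : ConvexOn ℝ univ (tf θ η w) := by
  refine ⟨convex_univ, fun x _ y _ a b ha hb hab => ?_⟩
  obtain rfl : b = 1 - a := by linarith
  have k := mul_nonneg ha hb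
  simp only [tf, ip, map_add, map_smul, Prod.fst_add, Prod.snd_add, Prod.smul_fst, Prod.smul_snd,
    Prod.fst_sub, Prod.snd_sub, smul_eq_mul]
  nlinarith [mul_nonneg k (mul_self_nonneg (x.1 - y.1)),
    mul_nonneg k (mul_self_nonneg (x.2.1 - y.2.1)),
    mul_nonneg k (mul_self_nonneg (x.2.2.1 - y.2.2.1)),
    mul_nonneg k (mul_self_nonneg (x.2.2.2 - y.2.2.2))]

theorem tf_fderiv (z a : R4) : fderiv ℝ (tf θ η w) z a = η * θ a + 2 * ip (z - w) a := by
  have h1 : HasDerivAt (fun t : ℝ => tf θ η w (z + t • a)) (fderiv ℝ (tf θ η w) z a) 0 :=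
    ((tf_smooth θ η w).differentiable (by simp) z).hasFDerivAt.hasLineDerivAt a
  have h2 : (fun t : ℝ => tf θ η w (z + t • a)) = fun t =>
      tf θ η w z + t * (η * θ a + 2 * ip (z - w) a) + t ^ 2 * ip a a := by
    ext t
    simp only [tf, add_sub_right_comm, ip_exp, map_add, map_smul, smul_eq_mul]
    ring
  have h3 := (((hasDerivAt_id' (0 : ℝ)).mul_const (η * θ a + 2 * ip (z - w) a)).const_add
    (tf θ η w z)).fun_add ((hasDerivAt_pow 2 (0 : ℝ)).mul_const (ip a a))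
  rw [h2] at h1
  simpa using h1.unique h3

theorem kt : KT := by
  intro M h e p r L c T N P W hP hW pP pW h1 h2
  have B : ∀ z ∈ closedBall p r, P354.Bilin (M.g e z) := fun z hz => h.sp.up.bilin e (N.sub hz)
  have pr : p ∈ closedBall p r := mem_closedBall_self N.r0.le
  obtain ⟨θ, hθ⟩ : ∃ θ : R4 →L[ℝ] ℝ, ∀ a, θ a = -M.g e p a T :=
    ⟨LinearMap.toContinuousLinearMap
      { toFun := fun a => -M.g e p a T
        map_add' := fun a b => by rw [(B p pr).add_left, neg_add]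
        map_smul' := fun t a => by rw [(B p pr).smul_left]; simp }, fun _ => rfl⟩
  have r0 := N.r0
  have c0 := N.c0
  have L0 := N.L0
  obtain ⟨ρ, ρ0, ρr, hρ⟩ := small (A := 8 * (L + 1) * ‖T‖ * ‖θ‖) (pow_pos c0 2) (half_pos r0)
  have cB : IsCompact (closedBall p r ∩ P) := (isCompact_closedBall p r).inter_right hP
  obtain ⟨δ, δ0, hδ⟩ := ((isCompact_sphere p ρ).diff hW).exists_cthickening_subset_open
    cB.isClosed.isOpen_compl fun z hz k => hz.2 (h1 z k.2 k.1 (ne_of_mem_sphere hz.1 ρ0.ne'))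
  have m0 : 0 < min δ (r / 4) := lt_min δ0 (by linarith)
  obtain ⟨η, η0, -, hη⟩ := small (A := ‖θ‖ * ρ) (pow_pos m0 2) one_pos
  have pA : p ∈ closedBall p ρ \ W := ⟨mem_closedBall_self ρ0.le, pW⟩
  obtain ⟨⟨z, w⟩, ⟨hz, hw⟩, hm⟩ := (((isCompact_closedBall p ρ).diff hW).prod cB).exists_isMinOn
    (f := fun q : R4 × R4 => tf θ η q.2 q.1) ⟨(p, p), pA, pr, pP⟩
    (Continuous.continuousOn (by unfold tf ip; fun_prop))
  dsimp only at hz hw
  have hq : ‖z - w‖ ^ 2 ≤ ‖θ‖ * ρ * η := by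
    have k1 : tf θ η w z ≤ tf θ η p p := hm (a := (p, p)) ⟨pA, pr, pP⟩
    have k2 : θ (p - z) ≤ ‖θ‖ * ρ := (le_abs_self _).trans ((θ.le_opNorm _).trans
      (mul_le_mul_of_nonneg_left (mem_closedBall_iff_norm'.1 hz.1) (norm_nonneg _)))
    have k3 := sq_le (z - w)
    have k4 : ip (p - p) (p - p) = 0 := by simp [ip]
    rw [map_sub] at k2
    unfold tf at k1
    nlinarith
  have hd : ‖z - w‖ ≤ min δ (r / 4) := (sq_le_sq₀ (norm_nonneg _) m0.le).1 (hq.trans hη.le)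
  have zb : z ∈ ball p ρ := by
    refine (mem_closedBall.1 hz.1).lt_or_eq.resolve_right fun k => ?_
    refine hδ (mem_cthickening_of_dist_le w z δ _ ⟨k, hz.2⟩ ?_) hw
    rw [dist_comm, dist_eq_norm]
    exact hd.trans (min_le_left _ _)
  have zr : z ∈ ball p r := ball_subset_ball (by linarith) zb
  have wr : w ∈ ball p r := by
    have := dist_triangle_left w p z
    have := hd.trans (min_le_right _ _)
    rw [← dist_eq_norm] at this
    have := mem_ball.1 zb
    rw [mem_ball]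
    linarith
  refine ⟨z, zr, hz.2, tf θ η w, tf_smooth _ _ _, tf_convex _ _ _,
    ⟨(tf_smooth _ _ _).contDiffAt.of_le (by simp), fun a a0 a1 a2 => ?_⟩, ?_⟩
  · have zr' := ball_subset_closedBall zr
    have n0 : 0 < ‖a‖ := norm_pos_iff.2 a0
    have k1 := N.cone z zr' p pr a a1 a2
    have k2 : 0 ≤ ip (z - w) (c • a + ((L + 1) * ‖z - w‖ * ‖a‖) • T) := by
      rcases eq_or_ne (z - w) 0 with k | k
      · simp [k, ip]
      have d0 : 0 < ‖z - w‖ := norm_pos_iff.2 k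
      set k0 := (L + 1) * ‖z - w‖ * ‖a‖ with hk
      have k00 : 0 < k0 := by positivity
      have Bw := B w hw.1
      have l1 := N.cone z zr' w hw.1 a a1 a2
      have l2 := (abs_le.1 (N.lip z zr' w hw.1 a a)).1
      obtain ⟨t1, t2⟩ := N.tl w hw.1
      have sy : ∀ u v, M.g e w u v = M.g e w v u := h.sp.up.symm e (N.sub hw.1)
      have l3 : M.g e w (c • a + k0 • T) (c • a + k0 • T) < 0 := by
        simp only [Bw.add_left, Bw.add_right, Bw.smul_left, Bw.smul_right, sy T a]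
        have e1 : c * (c * M.g e w a a) ≤ c * (c * k0 * ‖a‖) := by
          refine mul_le_mul_of_nonneg_left ?_ c0.le
          rw [mul_assoc]
          refine mul_le_mul_of_nonneg_left ?_ c0.le
          nlinarith [mul_pos (mul_pos d0 n0) n0]
        have e2 : c * k0 * M.g e w a T ≤ c * k0 * -(c * ‖a‖) :=
          mul_le_mul_of_nonneg_left (by linarith) (by positivity)
        nlinarith [mul_pos k00 (mul_pos k00 (neg_pos.2 t1)), mul_pos (mul_pos c0 k00) (mul_pos c0 n0)]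
      have l4 : M.g e w (c • a + k0 • T) T < 0 := by
        rw [Bw.add_left, Bw.smul_left, Bw.smul_left]
        nlinarith [mul_pos k00 (neg_pos.2 t1), mul_pos c0 n0]
      have l5 := P354YC.cone (h.lor e) (N.sub hw.1) t1 l3 l4
        (h.sp.timelike e w (N.sub hw.1)).le (sy _ _ ▸ t2)
      refine ip_nonneg ?_
      have l6 : ∀ᶠ s in 𝓝[>] (0 : ℝ), w - s • (c • a + k0 • T) ∈ ball p r := nhdsWithin_le_nhds
        ((by fun_prop : Continuous fun s : ℝ => w - s • (c • a + k0 • T)).continuousAt.eventually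
          (isOpen_ball.mem_nhds (by simpa using wr)))
      filter_upwards [h2 w hw.2 wr _ l3 l5, l6] with s s1 s2
      have l7 : tf θ η w z ≤ tf θ η (w - s • (c • a + k0 • T)) z :=
        hm (a := (z, w - s • (c • a + k0 • T))) ⟨hz, ball_subset_closedBall s2, s1⟩
      unfold tf at l7
      rw [sub_sub_eq_add_sub, add_sub_right_comm] at l7
      linarith
    rw [ip_lin] at k2
    rw [tf_fderiv, hθ]
    have k3 := mul_le_mul_of_nonneg_left (ip_le (z - w) T)
      (by positivity : 0 ≤ (L + 1) * ‖z - w‖ * ‖a‖)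
    have k4 := mul_le_mul_of_nonneg_left hq (by positivity : 0 ≤ 8 * (L + 1) * ‖T‖ * ‖a‖)
    have k5 := mul_lt_mul_of_pos_right hρ (mul_pos η0 n0)
    have k6 := mul_le_mul_of_nonneg_left k1 (mul_pos c0 η0).le
    refine pos_of_mul_pos_right (a := c) ?_ c0.le
    nlinarith
  · filter_upwards [isOpen_ball.mem_nhds zb] with x x1 x2
    by_contra n
    exact x2.not_ge (hm (a := (x, w)) ⟨⟨ball_subset_closedBall x1, n⟩, hw⟩)

end Vale.Agent.P354CB46
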